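import Vale.Agent.P290.H722.SmFam
import Vale.Agent.P290.H686.UTrans
import Vale.Agent.P290.H726.Dens
import Vale.Agent.P267.H332.Pair.IntAx

/-!
# P290Z, part III (K): closed forms, pairings and smooth families on a compact surface
-/

set_option linter.unusedSectionVars false

open scoped Manifold ContDiff Topology ComplexOrder
open Set Filter

noncomputable section

namespace Vale.Agent.P290Z.Kur.KA

open Vale.Agent.P267 Vale.Agent.P267.FL Vale.Agent.P267.BlockC Vale.Agent.P267.H332
open Vale.Agent.P290 Vale.Agent.P290.H342 Vale.Agent.P290.H686 Vale.Agent.P290.H722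

variable {Y : Type} [TopologicalSpace Y] [ChartedSpace FL.C2 Y] [IsManifold 𝓘(ℂ, FL.C2) ω Y]

theorem lbF (Y : Type) [TopologicalSpace Y] [ChartedSpace FL.C2 Y]
    [IsManifold 𝓘(ℂ, FL.C2) ω Y] : LBFacts Y where
  smooth L := L.L.curv_smooth
  closed L := L.L.curv_closed
  tensor L L' := by
    apply TwoF.ext
    · funext x; exact LB.F20_tensor _ _ x
    · funext x; ext i j; exact LB.F11_tensor _ _ x i j
    · funext x; exact LB.F02_tensor _ _ x
  dual L := by
    apply TwoF.ext
    · funext x; exact LB.F20_dual _ x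
    · funext x; ext i j; exact LB.F11_dual _ x i j
    · funext x; exact LB.F02_dual _ x

theorem d_smooth {A : OneF Y} (hA : A.Smooth) : A.d.Smooth :=
  H469.toF_smooth (H469.D1 (om1 A hA))

theorem d_closed {A : OneF Y} (hA : A.Smooth) : A.d.Closed := by
  have h := H469.D2_D1 (X := Y) (⟨A.f10, hA.s10⟩, ⟨A.f01, hA.s01⟩)
  have h1 : A.d.d21 = 0 := by
    have h2 := congrArg (fun p => (p.1 : Y → Fin 2 → ℂ)) h
    exact h2
  have h3 : A.d.d12 = 0 := by
    have h2 := congrArg (fun p => (p.2 : Y → Fin 2 → ℂ)) h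
    rw [H469.d12_eq]
    exact h2
  exact ⟨fun x j => by rw [h1]; rfl, fun x i => by rw [h3]; rfl⟩

theorem E2_add {e : Ch Y} (he : e ∈ atlas FL.C2 Y) (F G : TwoF Y) {z : FL.C2}
    (hz : z ∈ e.target) : E2 e (F + G) z = E2 e F z + E2 e G z := by
  have hx := e.map_target hz
  rw [← e.right_inv hz]
  ext v w
  rw [ContinuousLinearMap.add_apply, ContinuousLinearMap.add_apply, E2_apply he _ hx,
    E2_apply he _ hx, E2_apply he _ hx, val2_add']

theorem E2_smul {e : Ch Y} (he : e ∈ atlas FL.C2 Y) (c : ℂ) (F : TwoF Y) {z : FL.C2}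
    (hz : z ∈ e.target) : E2 e (c • F) z = c • E2 e F z := by
  have hx := e.map_target hz
  rw [← e.right_inv hz]
  ext v w
  rw [ContinuousLinearMap.smul_apply, ContinuousLinearMap.smul_apply, E2_apply he _ hx,
    E2_apply he _ hx, val2_smul', smul_eq_mul]

section fam

variable {V W : Type} [NormedAddCommGroup V] [NormedSpace ℝ V] [NormedAddCommGroup W]
  [NormedSpace ℝ W] {T T' : V → TwoF Y} {N : Set V}

theorem ev_target {e : Ch Y} {z : FL.C2} (hz : z ∈ e.target) (t : V) :
    ∀ᶠ q : V × FL.C2 in 𝓝 (t, z), q.2 ∈ e.target :=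
  continuousAt_snd.eventually_mem (e.open_target.mem_nhds hz)

theorem smFam_add (h : SmFam T N) (h' : SmFam T' N) : SmFam (fun t => T t + T' t) N := by
  intro t ht e he z hz
  refine ((h t ht e he z hz).add (h' t ht e he z hz)).congr_of_eventuallyEq ?_
  filter_upwards [ev_target hz t] with q hq
  exact E2_add he _ _ hq

theorem smFam_const {F : TwoF Y} (hF : F.Smooth) : SmFam (fun _ : V => F) N :=
  fun _ _ e he z hz =>
    ContDiffAt.comp (g := E2 e F) _ (smooth2_iff.1 hF e he z hz) contDiffAt_snd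

theorem smFam_smul {c : V → ℂ} (hc : ContDiff ℝ ∞ c) (h : SmFam T N) :
    SmFam (fun t => c t • T t) N := by
  intro t ht e he z hz
  have h1 : ContDiffAt ℝ ∞ (fun q : V × FL.C2 => c q.1) (t, z) :=
    (hc.comp contDiff_fst).contDiffAt
  refine (h1.smul (h t ht e he z hz)).congr_of_eventuallyEq ?_
  filter_upwards [ev_target hz t] with q hq
  exact E2_smul he _ _ hq

theorem smFam_comp {f : W → V} (hf : ContDiff ℝ ∞ f) (h : SmFam T N) :
    SmFam (fun t => T (f t)) (f ⁻¹' N) := fun t ht e he z hz =>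
  ContDiffAt.comp (g := fun q : V × FL.C2 => E2 e (T q.1) q.2)
    (f := fun q : W × FL.C2 => (f q.1, q.2)) (t, z) (h (f t) ht e he z hz)
    ((hf.comp contDiff_fst).prodMk contDiff_snd).contDiffAt

end fam

variable [T2Space Y] [CompactSpace Y] {n : ℕ} (U : UData Y n)

theorem smFam_combC : SmFam U.combC univ := by
  have key : ∀ S : Finset (Fin n),
      SmFam (fun t : Fin n → ℂ => ∑ i ∈ S, t i • (U.E i).L.curv) univ := by
    intro S
    induction S using Finset.induction_on with
    | empty => simpa using smFam_const (HC Y).zero_mem.1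
    | insert i S hi ih =>
      simp only [Finset.sum_insert hi]
      exact smFam_add (smFam_smul (contDiff_apply ℝ ℂ i) (smFam_const (U.E i).L.curv_smooth)) ih
  exact key Finset.univ

theorem exact_mem {F : TwoF Y} (hF : ExactTwo F) : F ∈ HC Y := by
  obtain ⟨A, hA, rfl⟩ := hF
  exact mem_HC_iff.2 ⟨d_smooth hA, d_closed hA⟩

theorem mem_of_exact {F : TwoF Y} {s : Fin n → ℂ} (hs : ExactTwo (F - U.combC s)) :
    F ∈ HC Y := by
  have h := (HC Y).add_mem (exact_mem hs) (U.combC_mem (lbF Y) s)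
  rwa [sub_add_cancel] at h

theorem pair_congr {F F' G : TwoF Y} (hF' : F' ∈ HC Y) (h : ExactTwo (F - F')) (hG : G ∈ HC Y) :
    pair F G = pair F' G := by
  have h2 : F = (F - F') + F' := by abel
  rw [h2, pair_add_left intAx (exact_mem h).1 hF'.1 hG.1, pair_exact intAx h hG, zero_add]

/-- the pairing in coordinates -/
theorem pair_coord {F G : TwoF Y} {s t : Fin n → ℂ} (hs : ExactTwo (F - U.combC s))
    (ht : ExactTwo (G - U.combC t)) :
    pair F G = -(4 * (Real.pi : ℂ) ^ 2) * H726.bil U.G s t := by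
  have h1 := U.combC_mem (lbF Y) s
  have h2 := U.combC_mem (lbF Y) t
  rw [pair_congr h1 hs (mem_of_exact U ht), H342.pair_comm, pair_congr h2 ht h1, H342.pair_comm,
    U.pair_combC (lbF Y) intAx, H726.bil]
  congr 1
  exact Finset.sum_congr rfl fun i _ => Finset.sum_congr rfl fun j _ => by ring

theorem pi_ne : -(4 * (Real.pi : ℂ) ^ 2) ≠ 0 := by
  have : (Real.pi : ℂ) ≠ 0 := by exact_mod_cast Real.pi_ne_zero
  simp [this]

/-- a form whose square is a multiple of a volume form and has the integral zero -/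
theorem eq_zero_of_pair [Nonempty Y] {F : TwoF Y} (hF : F.Smooth)
    {h : Y → Matrix (Fin 2) (Fin 2) ℂ} (hh : IsHerm h) {c : ℂ}
    (hc : ∀ x, F.wedge F x = c * (h x).det) (h0 : pair F F = 0) : c = 0 := by
  by_contra hne
  have h1 : ∀ x, (((h x).det.re : ℝ) : ℂ) = (h x).det ∧ 0 < (h x).det.re := fun x => by
    have h2 := (hh.posDef x).det_pos
    rw [Complex.pos_iff] at h2
    exact ⟨Complex.ext rfl (by rw [Complex.ofReal_im]; exact h2.2), h2.1⟩
  have h2 : (fun x => (((h x).det.re : ℝ) : ℂ)) = (c⁻¹ • F).wedge F := by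
    funext x
    rw [wedge_smul_left, (h1 x).1]
    simp only [hc x]
    field_simp
  have h3 : Reg2 ∞ 1 ((c⁻¹ • F).wedge F) := H332.reg2_wedge (TwoF_smooth_smul _ hF) hF
  obtain ⟨x⟩ := (inferInstance : Nonempty Y)
  have h4 := intX_re_pos (β := fun x => (h x).det.re) (by
    rw [h2]
    exact fun e he => (h3 e he).of_le (by simp)) (HasCompactSupport.of_compactSpace _)
    (fun x => (h1 x).2.le) (h1 x).2.ne'
  have h5 : intX ((c⁻¹ • F).wedge F) = c⁻¹ * pair F F := pair_smul_left intAx _ hF hF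
  rw [h2, h5, h0, mul_zero] at h4
  simp at h4

end Vale.Agent.P290Z.Kur.KA
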